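import Crest.Agent.N49.Gg.Pop

/-!
# Row 49 (helper16): G1 on complete hosts, all sums on the 4-cycle space (no error terms)
-/

set_option autoImplicit false
open scoped ENNReal Classical

namespace Crest.Agent.N49.Gg

variable {X B U V N : Type*}

theorem cs2 (ρ a b : X → ℝ≥0∞) :
    (∑' i, ρ i * (a i * b i)) ^ 2 ≤ (∑' i, ρ i * a i ^ 2) * ∑' i, ρ i * b i ^ 2 := by
  rw [← ENNReal.mul_le_mul_iff_right (a := 2) (by norm_num) (by norm_num), sq, ts_mul, two_mul,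
    two_mul]
  nth_rewrite 1 [mul_comm (∑' i, ρ i * a i ^ 2)]
  rw [ts_mul, ts_mul, ← ENNReal.tsum_add, ← ENNReal.tsum_add]
  refine ENNReal.tsum_le_tsum fun p => ?_
  calc _ = ρ p.1 * ρ p.2 * (2 * (b p.1 * a p.2 * (a p.1 * b p.2))) := by ring
    _ ≤ ρ p.1 * ρ p.2 * ((b p.1 * a p.2) ^ 2 + (a p.1 * b p.2) ^ 2) := by gcongr; exact amgm _ _
    _ = _ := by ring

/-- the weight of `(b, (u, u'), (v, v'))` -/
def wc {R : Type*} [Mul R] (wb : B → R) (wu : B → U → R) (wv : B → V → R)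
    (z : B × (U × U) × V × V) : R :=
  wb z.1 * (wu z.1 z.2.1.1 * wu z.1 z.2.1.2 * (wv z.1 z.2.2.1 * wv z.1 z.2.2.2))

theorem wc_sum (wb : B → ℝ≥0∞) (wu : B → U → ℝ≥0∞) (wv : B → V → ℝ≥0∞)
    (F : B × (U × U) × V × V → ℝ≥0∞) : ∑' z, wc wb wu wv z * F z =
      ∑' b, ∑' u, ∑' u', ∑' v, ∑' v', wb b * (wu b u * wu b u' * (wv b v * wv b v')) *
        F (b, (u, u'), v, v') := by
  simp only [ENNReal.tsum_prod', wc]

theorem c4c (wb : B → ℝ≥0∞) (wu : B → U → ℝ≥0∞) (wv : B → V → ℝ≥0∞) (F : B → U → V → ℝ≥0∞) :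
    (∑' z, wc wb wu wv z * F z.1 z.2.1.1 z.2.2.1) ^ 4 ≤ (∑' z, wc wb wu wv z) ^ 3 *
      ∑' z, wc wb wu wv z * (F z.1 z.2.1.1 z.2.2.1 * F z.1 z.2.1.1 z.2.2.2 *
        (F z.1 z.2.1.2 z.2.2.1 * F z.1 z.2.1.2 z.2.2.2)) := by
  set zu : B → ℝ≥0∞ := fun b => ∑' u, wu b u
  set zv : B → ℝ≥0∞ := fun b => ∑' v, wv b v
  have a1 := cs2 (fun x : B × U => wb x.1 * zu x.1 * wu x.1 x.2) (fun x => zv x.1)
    fun x => ∑' v, wv x.1 v * F x.1 x.2 v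
  have a2 := cs2 (fun x : B × V × V => wb x.1 * (wv x.1 x.2.1 * wv x.1 x.2.2)) (fun x => zu x.1)
    fun x => ∑' u, wu x.1 u * (F x.1 u x.2.1 * F x.1 u x.2.2)
  have eZ : ∑' z, wc wb wu wv z = ∑' b, wb b * (zu b ^ 2 * zv b ^ 2) := by
    simp only [ENNReal.tsum_prod', wc, ENNReal.tsum_mul_left, ENNReal.tsum_mul_right, sq, zu, zv]
  have e1 : ∑' x : B × U, wb x.1 * zu x.1 * wu x.1 x.2 * zv x.1 ^ 2 = ∑' z, wc wb wu wv z := by
    rw [eZ, ENNReal.tsum_prod']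
    simp only [ENNReal.tsum_mul_left, ENNReal.tsum_mul_right]
    exact tsum_congr fun b => by simp only [zu]; ring
  have e2 : ∑' x : B × V × V, wb x.1 * (wv x.1 x.2.1 * wv x.1 x.2.2) * zu x.1 ^ 2 =
      ∑' z, wc wb wu wv z := by
    rw [eZ]
    simp only [ENNReal.tsum_prod', ENNReal.tsum_mul_left, ENNReal.tsum_mul_right]
    exact tsum_congr fun b => by simp only [zv]; ring
  have e3 : ∑' z, wc wb wu wv z * F z.1 z.2.1.1 z.2.2.1 = ∑' x : B × U,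
      wb x.1 * zu x.1 * wu x.1 x.2 * (zv x.1 * ∑' v, wv x.1 v * F x.1 x.2 v) := by
    rw [wc_sum, ENNReal.tsum_prod']
    refine tsum_congr fun b => tsum_congr fun u => ?_
    simp only [zu, zv, ← ENNReal.tsum_mul_left, ← ENNReal.tsum_mul_right]
    rw [ENNReal.tsum_comm]
    refine tsum_congr fun v => ?_
    rw [ENNReal.tsum_comm]
    exact tsum_congr fun _ => tsum_congr fun _ => by ring
  have e4 : ∑' x : B × U, wb x.1 * zu x.1 * wu x.1 x.2 * (∑' v, wv x.1 v * F x.1 x.2 v) ^ 2 =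
      ∑' x : B × V × V, wb x.1 * (wv x.1 x.2.1 * wv x.1 x.2.2) *
        (zu x.1 * ∑' u, wu x.1 u * (F x.1 u x.2.1 * F x.1 u x.2.2)) := by
    simp only [ENNReal.tsum_prod']
    refine tsum_congr fun b => ?_
    simp only [sq, ← ENNReal.tsum_mul_left, ← ENNReal.tsum_mul_right]
    rw [ENNReal.tsum_comm]
    refine tsum_congr fun v => ?_
    rw [ENNReal.tsum_comm]
    exact tsum_congr fun _ => tsum_congr fun _ => by ring
  have e5 : ∑' x : B × V × V, wb x.1 * (wv x.1 x.2.1 * wv x.1 x.2.2) *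
      (∑' u, wu x.1 u * (F x.1 u x.2.1 * F x.1 u x.2.2)) ^ 2 =
      ∑' z, wc wb wu wv z * (F z.1 z.2.1.1 z.2.2.1 * F z.1 z.2.1.1 z.2.2.2 *
        (F z.1 z.2.1.2 z.2.2.1 * F z.1 z.2.1.2 z.2.2.2)) := by
    rw [ENNReal.tsum_prod', ENNReal.tsum_prod']
    refine tsum_congr fun b => ?_
    rw [ENNReal.tsum_prod' (f := fun z : (U × U) × V × V => _), ENNReal.tsum_comm]
    refine tsum_congr fun v => ?_
    rw [sq, ts_mul, ← ENNReal.tsum_mul_left]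
    exact tsum_congr fun _ => by simp only [wc]; ring
  rw [e1, e4, ← e3] at a1
  rw [e2, e5] at a2
  calc _ = ((∑' z, wc wb wu wv z * F z.1 z.2.1.1 z.2.2.1) ^ 2) ^ 2 := by ring
    _ ≤ _ := pow_le_pow_left' a1 2
    _ ≤ (∑' z, wc wb wu wv z) ^ 2 * ((∑' z, wc wb wu wv z) * _) := by rw [mul_pow]; gcongr
    _ = _ := by ring

/-- **G1** on a complete host -/
theorem g1c [Nonempty N] (wb : B → ℝ≥0∞) (wu : B → U → ℝ≥0∞) (wv : B → V → ℝ≥0∞)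
    (S : B → U → V → Prop) (p : B → U → V → N) : ∃ g : B → U → N,
    (∑' z, wc wb wu wv z * ind (S z.1 z.2.1.1 z.2.2.1)) ^ 4 ≤ (∑' z, wc wb wu wv z) ^ 3 *
      (∑' z, wc wb wu wv z * ind (S z.1 z.2.1.1 z.2.2.1 ∧ S z.1 z.2.1.1 z.2.2.2 ∧
          S z.1 z.2.1.2 z.2.2.1 ∧ S z.1 z.2.1.2 z.2.2.2 ∧
          p z.1 z.2.1.1 z.2.2.1 ≠ p z.1 z.2.1.1 z.2.2.2) +
        2 * ∑' z, wc wb wu wv z *
          ind (S z.1 z.2.1.1 z.2.2.1 ∧ p z.1 z.2.1.1 z.2.2.1 = g z.1 z.2.1.1)) := by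
  choose g hg using fun (b : B) (u : U) => pop1 (wv b) (S b u) (p b u)
  refine ⟨g, (c4c wb wu wv fun b u v => ind (S b u v)).trans ?_⟩
  gcongr
  have k : ∑' z, wc wb wu wv z * ind (S z.1 z.2.1.1 z.2.2.1 ∧ S z.1 z.2.1.1 z.2.2.2 ∧
      p z.1 z.2.1.1 z.2.2.1 = p z.1 z.2.1.1 z.2.2.2) ≤ 2 * ∑' z, wc wb wu wv z *
        ind (S z.1 z.2.1.1 z.2.2.1 ∧ p z.1 z.2.1.1 z.2.2.1 = g z.1 z.2.1.1) := by
    rw [ENNReal.tsum_prod', ENNReal.tsum_prod', ← ENNReal.tsum_mul_left]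
    refine ENNReal.tsum_le_tsum fun b => ?_
    rw [ENNReal.tsum_prod', ENNReal.tsum_prod' (f := fun z : (U × U) × V × V => _),
      ← ENNReal.tsum_mul_left]
    refine ENNReal.tsum_le_tsum fun u => ?_
    simp only [wc, mul_assoc (wb b), mul_assoc (wu b u.1 * wu b u.2), ENNReal.tsum_mul_left]
    rw [mul_left_comm 2, mul_left_comm 2]
    gcongr
    exact hg b u.1
  refine le_trans ?_ (add_le_add le_rfl k)
  rw [← ENNReal.tsum_add]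
  refine ENNReal.tsum_le_tsum fun z => ?_
  rw [← mul_add]
  gcongr
  by_cases k0 : S z.1 z.2.1.1 z.2.2.1 <;> by_cases k1 : S z.1 z.2.1.1 z.2.2.2 <;>
    by_cases k2 : S z.1 z.2.1.2 z.2.2.1 <;> by_cases k3 : S z.1 z.2.1.2 z.2.2.2 <;>
    by_cases k : p z.1 z.2.1.1 z.2.2.1 = p z.1 z.2.1.1 z.2.2.2 <;> simp [ind, *]

/-- **G1** on a complete host, real weights -/
theorem g1cr [Nonempty N] {wb : B → ℝ} {wu : B → U → ℝ} {wv : B → V → ℝ} (hb : ∀ b, 0 ≤ wb b)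
    (hu : ∀ b u, 0 ≤ wu b u) (hv : ∀ b v, 0 ≤ wv b v) (hs : Summable (wc wb wu wv))
    (S : B → U → V → Prop) (p : B → U → V → N) : ∃ g : B → U → N,
    (∑' z, wc wb wu wv z * ind (S z.1 z.2.1.1 z.2.2.1)) ^ 4 ≤ (∑' z, wc wb wu wv z) ^ 3 *
      (∑' z, wc wb wu wv z * ind (S z.1 z.2.1.1 z.2.2.1 ∧ S z.1 z.2.1.1 z.2.2.2 ∧
          S z.1 z.2.1.2 z.2.2.1 ∧ S z.1 z.2.1.2 z.2.2.2 ∧
          p z.1 z.2.1.1 z.2.2.1 ≠ p z.1 z.2.1.1 z.2.2.2) +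
        2 * ∑' z, wc wb wu wv z *
          ind (S z.1 z.2.1.1 z.2.2.1 ∧ p z.1 z.2.1.1 z.2.2.1 = g z.1 z.2.1.1)) := by
  obtain ⟨g, hg⟩ := g1c (fun b => .ofReal (wb b)) (fun b u => .ofReal (wu b u))
    (fun b v => .ofReal (wv b v)) S p
  have p0 : ∀ z, 0 ≤ wc wb wu wv z := fun z =>
    mul_nonneg (hb _) (mul_nonneg (mul_nonneg (hu _ _) (hu _ _)) (mul_nonneg (hv _ _) (hv _ _)))
  have e : ∀ z, wc (fun b => ENNReal.ofReal (wb b)) (fun b u => .ofReal (wu b u))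
      (fun b v => .ofReal (wv b v)) z = .ofReal (wc wb wu wv z) := fun z => by
    rw [wc, wc, ENNReal.ofReal_mul (hb _), ENNReal.ofReal_mul (mul_nonneg (hu _ _) (hu _ _)),
      ENNReal.ofReal_mul (hu _ _), ENNReal.ofReal_mul (hv _ _)]
  have n : ∀ P : B × (U × U) × V × V → Prop, 0 ≤ ∑' x, wc wb wu wv x * ind (P x) :=
    fun P => tsum_nonneg fun x => mul_nonneg (p0 x) (ind_u1 _).1
  have z0 : 0 ≤ ∑' x, wc wb wu wv x := tsum_nonneg p0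
  refine ⟨g, ?_⟩
  simp only [e] at hg
  rw [ofR p0 hs, ofR p0 hs, ofR p0 hs, ← ENNReal.ofReal_tsum_of_nonneg p0 hs,
    ← ENNReal.ofReal_pow (n _), ← ENNReal.ofReal_pow z0, ← ENNReal.ofReal_ofNat 2,
    ← ENNReal.ofReal_mul (by norm_num), ← ENNReal.ofReal_add (n _) (mul_nonneg (by norm_num) (n _)),
    ← ENNReal.ofReal_mul (pow_nonneg z0 3)] at hg
  exact (ENNReal.ofReal_le_ofReal_iff (mul_nonneg (pow_nonneg z0 3)
    (add_nonneg (n _) (mul_nonneg (by norm_num) (n _))))).1 hg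

end Crest.Agent.N49.Gg
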