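import Mathlib

/-!
# Row 49 (helper16): tensors without mixed clone marks are diagonal

`A = ℤ³` with basis `a₀, a₁, a₂` and `a₃ = a₁ + a₂ - a₀` (so `a₀ + a₃ = a₁ + a₂`).
-/

set_option autoImplicit false
open Finset Function
open scoped BigOperators

namespace Crest.Agent.N49.Gg

/-- coordinates of the four points of the free additive quadruple -/
def av : Fin 4 → Fin 3 → ℤ := ![![1, 0, 0], ![0, 1, 0], ![0, 0, 1], ![-1, 1, 1]]

variable {κ N : Type*} [Fintype κ] [DecidableEq κ] [AddCommGroup N]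

/-- two slots replaced -/
def u2 (i : κ → Fin 3) (s r : κ) (x y : Fin 3) : κ → Fin 3 := update (update i s x) r y

omit [Fintype κ] in
theorem u2_comm (i : κ → Fin 3) {s r : κ} (h : s ≠ r) (x y : Fin 3) :
    u2 i s r x y = u2 i r s y x := update_comm h _ _ _

omit [Fintype κ] in
theorem u2_self (i : κ → Fin 3) (s r : κ) : u2 i s r (i s) (i r) = i := by simp [u2]

theorem eps_u2 (i : κ → Fin 3) {s r : κ} (h : s ≠ r) (x y : Fin 3) :
    ∏ z, av 3 (u2 i s r x y z) = (∏ z ∈ (univ.erase r).erase s, av 3 (i z)) * (av 3 x * av 3 y) := by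
  rw [← prod_erase_mul _ _ (mem_univ r), ← prod_erase_mul _ _ (mem_erase.2 ⟨h, mem_univ s⟩),
    mul_assoc]
  congr 1
  · refine prod_congr rfl fun z hz => ?_
    simp only [mem_erase] at hz
    simp [u2, hz.1, hz.2.1]
  · simp [u2, h]

/-- no monomial carries both clone marks, in each of the three pairings -/
structure NoMix (t : (κ → Fin 3) → N) : Prop where
  p1 : ∀ i s r, s ≠ r → t (u2 i s r 0 2) + t (u2 i s r 1 2) = 0
  p2 : ∀ i s r, s ≠ r → t (u2 i s r 0 1) + t (u2 i s r 2 1) = 0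
  p3 : ∀ i s r, s ≠ r → t (u2 i s r 0 1) - t (u2 i s r 0 2) = 0

theorem NoMix.pair {t : (κ → Fin 3) → N} (h : NoMix t) (i : κ → Fin 3) {s r : κ} (hs : s ≠ r)
    {x y : Fin 3} (hxy : x ≠ y) : (av 3 x * av 3 y) • t (u2 i s r x y) = t (u2 i s r 1 2) := by
  have a1 := h.p1 i s r hs
  have a2 := h.p2 i s r hs
  have a3 := h.p3 i s r hs
  have b1 := h.p1 i r s hs.symm
  have b2 := h.p2 i r s hs.symm
  have b3 := h.p3 i r s hs.symm
  simp only [← u2_comm i hs] at b1 b2 b3
  have c02 : -t (u2 i s r 0 2) = t (u2 i s r 1 2) := neg_eq_of_add_eq_zero_right a1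
  have c10 : -t (u2 i s r 1 0) = t (u2 i s r 1 2) := neg_eq_of_add_eq_zero_right b2
  have c01 : -t (u2 i s r 0 1) = t (u2 i s r 1 2) := by rw [sub_eq_zero.1 a3, c02]
  have c20 : -t (u2 i s r 2 0) = t (u2 i s r 1 2) := by rw [← sub_eq_zero.1 b3, c10]
  have c21 : t (u2 i s r 2 1) = t (u2 i s r 1 2) := by
    rw [← c01]; exact (neg_eq_of_add_eq_zero_right a2).symm
  fin_cases x <;> fin_cases y <;> simp_all [av]

theorem NoMix.step {t : (κ → Fin 3) → N} (h : NoMix t) (i : κ → Fin 3) {s r : κ} (hi : i s ≠ i r)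
    {x y : Fin 3} (hxy : x ≠ y) :
    (∏ z, av 3 (i z)) • t i = (∏ z, av 3 (u2 i s r x y z)) • t (u2 i s r x y) := by
  have hs : s ≠ r := fun e => hi (e ▸ rfl)
  conv_lhs => rw [← u2_self i s r]
  rw [eps_u2 i hs, eps_u2 i hs, mul_smul, mul_smul _ (_ * _), h.pair i hs hi, h.pair i hs hxy]

theorem NoMix.canon {t : (κ → Fin 3) → N} (h : NoMix t) (s : κ) :
    ∀ (n : ℕ) (i : κ → Fin 3), #{z | z ≠ s ∧ i z ≠ 1} = n → i s = 0 → (∃ r, i r = 1) →
      (∏ z, av 3 (i z)) • t i =
        (∏ z, av 3 (update (fun _ => (1 : Fin 3)) s 0 z)) • t (update (fun _ => 1) s 0) := by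
  intro n
  induction n with
  | zero =>
    intro i hc h0 _
    have : i = update (fun _ => (1 : Fin 3)) s 0 := by
      funext z
      by_cases hz : z = s
      · simp [hz, h0]
      · rw [update_of_ne hz]
        by_contra hne
        have : z ∈ ({z | z ≠ s ∧ i z ≠ 1} : Finset κ) := by simp [hz, hne]
        rw [card_eq_zero.1 hc] at this
        simp at this
    rw [this]
  | succ n ih =>
    have two : ∀ (i : κ → Fin 3) (z : κ), #{z | z ≠ s ∧ i z ≠ 1} = n + 1 → i s = 0 → i z = 2 →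
        (∏ z, av 3 (i z)) • t i =
          (∏ z, av 3 (update (fun _ => (1 : Fin 3)) s 0 z)) • t (update (fun _ => 1) s 0) := by
      intro i z hc h0 hz
      have hzs : z ≠ s := fun e => by rw [e, h0] at hz; exact absurd hz (by decide)
      rw [h.step i (s := s) (r := z) (by rw [h0, hz]; decide) (x := 0) (y := 1) (by decide)]
      refine ih _ ?_ (by simp [u2, hzs.symm]) ⟨z, by simp [u2]⟩
      have : ({w | w ≠ s ∧ u2 i s z 0 1 w ≠ 1} : Finset κ) =
          ({w | w ≠ s ∧ i w ≠ 1} : Finset κ).erase z := by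
        ext w
        simp only [mem_filter, mem_erase, mem_univ, true_and]
        by_cases hw : w = z
        · simp [hw, u2]
        · by_cases hws : w = s <;> simp [u2, hw, hws]
      rw [this, card_erase_of_mem (by simp [hzs, hz]), hc]; rfl
    intro i hc h0 ⟨r, hr⟩
    obtain ⟨z, hz⟩ := card_pos.1 (hc.symm ▸ Nat.succ_pos n : 0 < #{z | z ≠ s ∧ i z ≠ 1})
    simp only [mem_filter, mem_univ, true_and] at hz
    by_cases h2 : i z = 2
    · exact two i z hc h0 h2
    · have hz0 : i z = 0 := by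
        have := hz.2
        generalize i z = a at *
        fin_cases a <;> simp_all
      have hzr : z ≠ r := fun e => hz.2 (e ▸ hr)
      have hsr : s ≠ r := fun e => by rw [e, hr] at h0; exact absurd h0 (by decide)
      rw [h.step i (s := z) (r := r) (by rw [hz0, hr]; decide) (x := 2) (y := 1) (by decide)]
      refine two _ z ?_ (by simp [u2, hsr, hz.1.symm, h0]) (by simp [u2, hzr])
      rw [← hc]
      congr 1
      ext w
      simp only [mem_filter, mem_univ, true_and]
      by_cases hw : w = r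
      · simp [hw, u2, hr]
      · by_cases hwz : w = z
        · simp [u2, hwz, hzr, hz.1, hz0]
        · simp [u2, hw, hwz]

theorem eps_sq (i : κ → Fin 3) : (∏ z, av 3 (i z)) * ∏ z, av 3 (i z) = 1 := by
  rw [← prod_mul_distrib]
  refine prod_eq_one fun z _ => ?_
  generalize i z = a
  fin_cases a <;> simp [av]

/-- DIAG, coefficient form -/
theorem diag {t : (κ → Fin 3) → N} (h : NoMix t) :
    ∃ n : Fin 4 → N, ∀ i, t i = ∑ l, (∏ z, av l (i z)) • n l := by
  rcases isEmpty_or_nonempty κ with hκ | ⟨⟨s⟩⟩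
  · refine ⟨![t fun _ => 0, 0, 0, 0], fun i => ?_⟩
    rw [Subsingleton.elim i fun _ => 0]
    simp [Fin.sum_univ_four]
  set m : N := (∏ z, av 3 (update (fun _ => (1 : Fin 3)) s 0 z)) • t (update (fun _ => 1) s 0)
  refine ⟨![t (fun _ => 0) - (∏ _z : κ, av 3 0) • m, t (fun _ => 1) - (∏ _z : κ, av 3 1) • m,
    t (fun _ => 2) - (∏ _z : κ, av 3 2) • m, m], fun i => ?_⟩
  have z0 : ∀ (l : Fin 4) (z : κ), av l (i z) = 0 → ∏ z, av l (i z) = 0 :=
    fun l z hz => prod_eq_zero (mem_univ z) hz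
  by_cases hc : ∀ r, i r = i s
  · have hi : i = fun _ => i s := funext hc
    have hk : Fintype.card κ ≠ 0 := (Fintype.card_pos_iff.2 ⟨s⟩).ne'
    rw [hi]
    generalize i s = a
    fin_cases a <;> simp [Fin.sum_univ_four, av, hk]
  · push Not at hc
    obtain ⟨r, hr⟩ := hc
    have hrs : s ≠ r := fun e => hr (e ▸ rfl)
    have e1 := (h.step i hr.symm (x := 0) (y := 1) (by decide)).trans
      (h.canon s _ (u2 i s r 0 1) rfl (by simp [u2, hrs]) ⟨r, by simp [u2]⟩)
    have e2 : t i = (∏ z, av 3 (i z)) • m := by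
      rw [show m = (∏ z, av 3 (i z)) • t i from e1.symm, ← mul_smul, eps_sq, one_smul]
    have v : ∀ l : Fin 4, l ≠ 3 → ∏ z, av l (i z) = 0 := by
      intro l hl
      have : av l (i r) = 0 ∨ av l (i s) = 0 := by
        generalize i r = a, i s = b at hr
        fin_cases l <;> fin_cases a <;> fin_cases b <;> simp_all [av]
      exact this.elim (z0 l r) (z0 l s)
    rw [Fin.sum_univ_four, v 0 (by decide), v 1 (by decide), v 2 (by decide), e2]
    simp

/-- the value of a functional on `A` (given on `a₀, a₁, a₂`) at the point `a_l` -/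
def ev (l : Fin 4) (ξ : Fin 3 → ℤ) : ℤ := ∑ j, av l j * ξ j

/-- DIAG, multilinear form: `T` kills the three pairs of clone functionals -/
theorem diag_ml (T : MultilinearMap ℤ (fun _ : κ => Fin 3 → ℤ) N)
    (h1 : ∀ ξ s r, s ≠ r → ξ s = ![1, 1, 0] → ξ r = ![0, 0, 1] → T ξ = 0)
    (h2 : ∀ ξ s r, s ≠ r → ξ s = ![1, 0, 1] → ξ r = ![0, 1, 0] → T ξ = 0)
    (h3 : ∀ ξ s r, s ≠ r → ξ s = ![1, 0, 0] → ξ r = ![0, 1, -1] → T ξ = 0) :
    ∃ n : Fin 4 → N, ∀ ξ, T ξ = ∑ l, (∏ z, ev l (ξ z)) • n l := by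
  let b : (κ → Fin 3) → κ → Fin 3 → ℤ := fun i z => Pi.single (i z) 1
  have hb : ∀ i s r x y, b (u2 i s r x y) =
      update (update (b i) s (Pi.single x 1)) r (Pi.single y 1) := by
    intro i s r x y
    funext z
    by_cases hr : z = r
    · simp [b, u2, hr]
    · by_cases hs : z = s
      · subst hs; simp [b, u2, hr]
      · simp [b, u2, hr, hs]
  have hm : NoMix fun i : κ → Fin 3 => T (b i) := by
    refine ⟨fun i s r hs => ?_, fun i s r hs => ?_, fun i s r hs => ?_⟩
    · simp only [hb, update_comm hs]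
      rw [← T.map_update_add]
      refine h1 _ s r hs ?_ ?_
      · rw [update_self]; decide
      · rw [update_of_ne hs.symm, update_self]; decide
    · simp only [hb, update_comm hs]
      rw [← T.map_update_add]
      refine h2 _ s r hs ?_ ?_
      · rw [update_self]; decide
      · rw [update_of_ne hs.symm, update_self]; decide
    · simp only [hb]
      rw [← T.map_update_sub]
      refine h3 _ s r hs ?_ ?_
      · rw [update_of_ne hs, update_self]; decide
      · rw [update_self]; decide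
  obtain ⟨n, hn⟩ := diag hm
  refine ⟨n, fun ξ => ?_⟩
  have e : ξ = fun z => ∑ j : Fin 3, ξ z j • (Pi.single j 1 : Fin 3 → ℤ) := by
    funext z j
    simp [Pi.single_apply]
  conv_lhs => rw [e, T.map_sum]
  have e2 : ∀ i : κ → Fin 3, T (fun z => ξ z (i z) • (Pi.single (i z) 1 : Fin 3 → ℤ)) =
      ∑ l, ((∏ z, ξ z (i z)) * ∏ z, av l (i z)) • n l := by
    intro i
    rw [T.map_smul_univ, show (T fun z => (Pi.single (i z) 1 : Fin 3 → ℤ)) = _ from hn i, smul_sum]
    simp only [mul_smul]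
  simp only [e2]
  rw [sum_comm]
  refine sum_congr rfl fun l _ => ?_
  rw [← sum_smul]
  congr 1
  simp only [ev]
  rw [Fintype.prod_sum]
  refine sum_congr rfl fun i _ => ?_
  rw [← prod_mul_distrib]
  exact prod_congr rfl fun z _ => mul_comm _ _

end Crest.Agent.N49.Gg
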