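import Mathlib

/-!
# Row 49 (helper16): labels that agree along 4-cycles are functions of one vertex (G1)

Edges `(b, u, v, e)`: background `b`, vertices `u`, `v`, edge coordinates `e`.
-/

set_option autoImplicit false
open scoped ENNReal Classical

namespace Crest.Agent.N49.Gg

/-- indicator of a proposition -/
noncomputable def ind {R : Type*} [Zero R] [One R] (P : Prop) : R := if P then 1 else 0

section enn
variable {X Y : Type*}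

theorem amgm (x y : ℝ≥0∞) : 2 * (x * y) ≤ x ^ 2 + y ^ 2 := by
  rcases eq_or_ne x ⊤ with rfl | hx
  · simp
  rcases eq_or_ne y ⊤ with rfl | hy
  · simp
  lift x to NNReal using hx
  lift y to NNReal using hy
  have := two_mul_le_add_sq x y
  rw [mul_assoc] at this
  exact_mod_cast this

theorem ts_mul (f : X → ℝ≥0∞) (g : Y → ℝ≥0∞) :
    (∑' x, f x) * ∑' y, g y = ∑' p : X × Y, f p.1 * g p.2 := by
  rw [ENNReal.tsum_prod', ← ENNReal.tsum_mul_right]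
  simp only [ENNReal.tsum_mul_left]

theorem cs (a b : X → ℝ≥0∞) : (∑' i, a i * b i) ^ 2 ≤ (∑' i, a i) * ∑' i, a i * b i ^ 2 := by
  rw [← ENNReal.mul_le_mul_iff_right (a := 2) (by norm_num) (by norm_num), sq, ts_mul, two_mul,
    two_mul]
  nth_rewrite 1 [mul_comm (∑' i, a i)]
  rw [ts_mul, ts_mul, ← ENNReal.tsum_add, ← ENNReal.tsum_add]
  refine ENNReal.tsum_le_tsum fun p => ?_
  calc _ = a p.1 * a p.2 * (2 * (b p.1 * b p.2)) := by ring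
    _ ≤ a p.1 * a p.2 * (b p.1 ^ 2 + b p.2 ^ 2) := by gcongr; exact amgm _ _
    _ = _ := by ring

/-- Cauchy-Schwarz with a cloned variable -/
theorem clone (ρ : X → ℝ≥0∞) (κ : X → Y → ℝ≥0∞) : (∑' p : X × Y, ρ p.1 * κ p.1 p.2) ^ 2 ≤
    (∑' x, ρ x) * ∑' p : X × Y × Y, ρ p.1 * (κ p.1 p.2.1 * κ p.1 p.2.2) := by
  rw [ENNReal.tsum_prod', ENNReal.tsum_prod']
  simp only [ENNReal.tsum_mul_left, ← ts_mul, ← sq]
  exact cs _ _

/-- a popular value -/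
theorem pop1 {N : Type*} [Nonempty N] (a : Y → ℝ≥0∞) (S : Y → Prop) (p : Y → N) : ∃ g,
    ∑' q : Y × Y, a q.1 * a q.2 * ind (S q.1 ∧ S q.2 ∧ p q.1 = p q.2) ≤
      2 * ∑' q : Y × Y, a q.1 * a q.2 * ind (S q.1 ∧ p q.1 = g) := by
  set m : N → ℝ≥0∞ := fun n => ∑' y, a y * ind (S y ∧ p y = n) with hm
  have r : ∀ g, ∑' q : Y × Y, a q.1 * a q.2 * ind (S q.1 ∧ p q.1 = g) = m g * ∑' y, a y := by
    intro g
    rw [hm, ts_mul]
    exact tsum_congr fun q => by ring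
  have l : ∑' q : Y × Y, a q.1 * a q.2 * ind (S q.1 ∧ S q.2 ∧ p q.1 = p q.2) ≤
      (⨆ n, m n) * ∑' y, a y := by
    rw [ENNReal.tsum_prod', ENNReal.tsum_comm, ← ENNReal.tsum_mul_left]
    refine ENNReal.tsum_le_tsum fun y => le_trans ?_ (mul_le_mul_left (le_iSup m (p y)) _)
    rw [hm, ← ENNReal.tsum_mul_right]
    refine ENNReal.tsum_le_tsum fun x => ?_
    by_cases h : S x ∧ S y ∧ p x = p y
    · simp [ind, h.1, h.2.1, h.2.2]
    · simp only [ind, if_neg h, mul_zero, zero_le]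
  simp only [r]
  rcases eq_or_ne (⨆ n, m n) 0 with h0 | h0
  · exact ⟨Classical.arbitrary N, l.trans (by simp [h0])⟩
  rcases eq_or_ne (⨆ n, m n) ⊤ with h1 | h1
  · obtain ⟨g, hg⟩ := lt_iSup_iff.1 (pos_iff_ne_zero.2 h0)
    have : ∑' y, a y = ⊤ := top_le_iff.1 (h1.ge.trans (iSup_le fun n =>
      ENNReal.tsum_le_tsum fun y => by by_cases h : S y ∧ p y = n <;> simp [ind, h]))
    exact ⟨g, by rw [this, ENNReal.mul_top hg.ne', ENNReal.mul_top (by norm_num)]; exact le_top⟩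
  · obtain ⟨g, hg⟩ := lt_iSup_iff.1 (ENNReal.half_lt_self h0 h1)
    refine ⟨g, l.trans ?_⟩
    rw [← mul_assoc]
    gcongr
    rw [← ENNReal.add_halves (⨆ n, m n), two_mul]
    exact add_le_add hg.le hg.le

/-- a member that keeps the average -/
theorem exists_ge (H F : X → ℝ≥0∞) (δ : ℝ≥0∞) (h0 : ∑' x, H x ≠ 0) (h1 : δ * ∑' x, H x ≠ ⊤)
    (hF : ∀ x, H x = 0 → F x = 0) (h : δ * ∑' x, H x ≤ ∑' x, F x) :
    ∃ x, H x ≠ 0 ∧ δ * H x ≤ F x := by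
  by_contra hc
  push Not at hc
  obtain ⟨x, hx⟩ : ∃ x, H x ≠ 0 := by
    by_contra h'
    push Not at h'
    exact h0 (by simp [h'])
  have hle : F ≤ fun x => δ * H x := fun x => by
    by_cases e : H x = 0
    · simp [hF x e]
    · exact (hc x e).le
  rw [← ENNReal.tsum_mul_left] at h h1
  exact absurd h (not_le.2 (ENNReal.tsum_lt_tsum
    (ne_top_of_le_ne_top h1 (ENNReal.tsum_le_tsum hle)) hle (hc x hx)))

end enn

/-- the weights of the four blocks -/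
structure Wt (R B U V E : Type*) where
  b : B → R
  u : B → U → R
  v : B → V → R
  e : B → U → V → E → R

variable {R B U V E N : Type*}

/-- cherries `(b, u, (v, e), (v', e'))` -/
abbrev TC (B U V E : Type*) := B × U × (V × E) × V × E

/-- 4-cycles: a cherry and `(u', f, f')` -/
abbrev T4 (B U V E : Type*) := TC B U V E × U × E × E

def c0 (z : TC B U V E) : B × U × V × E := (z.1, z.2.1, z.2.2.1)
def c1 (z : TC B U V E) : B × U × V × E := (z.1, z.2.1, z.2.2.2)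
def c2 (z : T4 B U V E) : B × U × V × E := (z.1.1, z.2.1, z.1.2.2.1.1, z.2.2.1)
def c3 (z : T4 B U V E) : B × U × V × E := (z.1.1, z.2.1, z.1.2.2.2.1, z.2.2.2)

namespace Wt
variable [Mul R] (w : Wt R B U V E)

def zu (x : B × U) : R := w.b x.1 * w.u x.1 x.2
def zv (x : B × V × V) : R := w.b x.1 * (w.v x.1 x.2.1 * w.v x.1 x.2.2)
def ve (z : B × U × V × E) : R := w.v z.1 z.2.2.1 * w.e z.1 z.2.1 z.2.2.1 z.2.2.2
def w1 (z : B × U × V × E) : R := w.zu (z.1, z.2.1) * w.ve z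
def w2 (z : TC B U V E) : R := w.zu (z.1, z.2.1) * (w.ve (c0 z) * w.ve (c1 z))
def w4 (z : T4 B U V E) : R := w.w2 z.1 *
  (w.u z.1.1 z.2.1 * (w.e z.1.1 z.2.1 z.1.2.2.1.1 z.2.2.1 * w.e z.1.1 z.2.1 z.1.2.2.2.1 z.2.2.2))

end Wt

/-- counting 4-cycles -/
theorem c4 (w : Wt ℝ≥0∞ B U V E) (F : B × U × V × E → ℝ≥0∞) : (∑' z, w.w1 z * F z) ^ 4 ≤
    (∑' x, w.zu x) ^ 2 * ((∑' x, w.zv x) *
      ∑' z : T4 B U V E, w.w4 z * (F (c0 z.1) * F (c1 z.1) * (F (c2 z) * F (c3 z)))) := by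
  have a1 := clone w.zu fun x (y : V × E) => w.ve (x.1, x.2, y) * F (x.1, x.2, y)
  have a2 := clone w.zv fun x (y : U × E × E) => w.u x.1 y.1 *
    (w.e x.1 y.1 x.2.1 y.2.1 * F (x.1, y.1, x.2.1, y.2.1) *
      (w.e x.1 y.1 x.2.2 y.2.2 * F (x.1, y.1, x.2.2, y.2.2)))
  let e2 : (B × V × V) × U × E × E ≃ (B × U) × (V × E) × V × E :=
    ⟨fun p => ((p.1.1, p.2.1), (p.1.2.1, p.2.2.1), p.1.2.2, p.2.2.2),
      fun p => ((p.1.1, p.2.1.1, p.2.2.1), p.1.2, p.2.1.2, p.2.2.2), fun _ => rfl, fun _ => rfl⟩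
  let e3 : T4 B U V E ≃ (B × V × V) × (U × E × E) × U × E × E :=
    ⟨fun z => ((z.1.1, z.1.2.2.1.1, z.1.2.2.2.1), (z.1.2.1, z.1.2.2.1.2, z.1.2.2.2.2), z.2),
      fun p => ((p.1.1, p.2.1.1, (p.1.2.1, p.2.1.2.1), p.1.2.2, p.2.1.2.2), p.2.2),
      fun _ => rfl, fun _ => rfl⟩
  rw [← e2.tsum_eq] at a1
  rw [← e3.tsum_eq] at a2
  rw [← (Equiv.prodAssoc B U (V × E)).tsum_eq, show 4 = 2 * 2 from rfl, pow_mul]
  refine le_trans (pow_le_pow_left' (le_of_eq_of_le ?_ a1) 2) ?_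
  · congr 1
    exact tsum_congr fun p => by simp only [Wt.w1, Equiv.prodAssoc_apply]; ring
  rw [mul_pow]
  gcongr
  refine le_of_eq_of_le ?_ (a2.trans_eq ?_)
  · congr 1
    exact tsum_congr fun p => by simp only [e2, Equiv.coe_fn_mk, Wt.zu, Wt.zv, Wt.ve]; ring
  · congr 1
    exact tsum_congr fun p => by
      simp only [e3, Equiv.coe_fn_mk, Wt.zu, Wt.zv, Wt.ve, Wt.w4, Wt.w2, c0, c1, c2, c3]; ring

/-- popular values over every vertex `u` -/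
theorem pop [Nonempty N] (w : Wt ℝ≥0∞ B U V E) (S : B × U × V × E → Prop)
    (p : B × U × V × E → N) : ∃ g : B → U → N,
    ∑' z, w.w2 z * ind (S (c0 z) ∧ S (c1 z) ∧ p (c0 z) = p (c1 z)) ≤
      2 * ∑' z, w.w2 z * ind (S (c0 z) ∧ p (c0 z) = g z.1 z.2.1) := by
  choose g hg using fun (b : B) (u : U) => pop1 (fun y : V × E => w.ve (b, u, y))
    (fun y => S (b, u, y)) fun y => p (b, u, y)
  refine ⟨g, ?_⟩
  rw [ENNReal.tsum_prod', ENNReal.tsum_prod', ← ENNReal.tsum_mul_left]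
  refine ENNReal.tsum_le_tsum fun b => ?_
  rw [ENNReal.tsum_prod', ENNReal.tsum_prod', ← ENNReal.tsum_mul_left]
  refine ENNReal.tsum_le_tsum fun u => ?_
  simp only [Wt.w2, c0, c1, mul_assoc (w.zu (b, u)), ENNReal.tsum_mul_left]
  rw [mul_left_comm]
  gcongr
  exact hg b u

/-- **G1**: labels agree along the 4-cycles of `S` (off `τ₁`), codegrees and degrees are bounded in
the push-forward sense -/
theorem g1 [Nonempty N] (w : Wt ℝ≥0∞ B U V E) (S : B × U × V × E → Prop) (p : B × U × V × E → N)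
    {c c' τ₁ τ₂ τ₃ : ℝ≥0∞}
    (h1 : ∑' z : T4 B U V E, w.w4 z *
      ind (S (c0 z.1) ∧ S (c1 z.1) ∧ S (c2 z) ∧ S (c3 z) ∧ p (c0 z.1) ≠ p (c1 z.1)) ≤ τ₁)
    (h2 : ∀ F : TC B U V E → Prop,
      ∑' z : T4 B U V E, w.w4 z * ind (F z.1) ≤ c * ∑' z, w.w2 z * ind (F z) + τ₂)
    (h3 : ∀ F : B × U × V × E → Prop,
      ∑' z, w.w2 z * ind (F (c0 z)) ≤ c' * ∑' z, w.w1 z * ind (F z) + τ₃) :
    ∃ g : B → U → N, (∑' z, w.w1 z * ind (S z)) ^ 4 ≤ (∑' x, w.zu x) ^ 2 * ((∑' x, w.zv x) *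
      (τ₁ + τ₂ + 2 * c * (c' * ∑' z, w.w1 z * ind (S z ∧ p z = g z.1 z.2.1) + τ₃))) := by
  obtain ⟨g, hg⟩ := pop w S p
  refine ⟨g, (c4 w _).trans ?_⟩
  gcongr
  have a := h2 fun z => S (c0 z) ∧ S (c1 z) ∧ p (c0 z) = p (c1 z)
  have b := h3 fun z => S z ∧ p z = g z.1 z.2.1
  calc _ ≤ _ := ENNReal.tsum_le_tsum fun z : T4 B U V E => (?_ : _ ≤ w.w4 z *
          ind (S (c0 z.1) ∧ S (c1 z.1) ∧ S (c2 z) ∧ S (c3 z) ∧ p (c0 z.1) ≠ p (c1 z.1)) +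
          w.w4 z * ind (S (c0 z.1) ∧ S (c1 z.1) ∧ p (c0 z.1) = p (c1 z.1)))
    _ ≤ τ₁ + (c * (2 * (c' * ∑' z, w.w1 z * ind (S z ∧ p z = g z.1 z.2.1) + τ₃)) + τ₂) := by
      rw [ENNReal.tsum_add]
      refine add_le_add h1 (a.trans ?_)
      gcongr
      exact hg.trans (by gcongr; exact b)
    _ = _ := by ring
  rw [← mul_add]
  gcongr
  by_cases k0 : S (c0 z.1) <;> by_cases k1 : S (c1 z.1) <;> by_cases k2 : S (c2 z) <;>
    by_cases k3 : S (c3 z) <;> by_cases k : p (c0 z.1) = p (c1 z.1) <;> simp [ind, *]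

section real

theorem ind_u1 (P : Prop) : (0 : ℝ) ≤ ind P ∧ (ind P : ℝ) ≤ 1 := by
  by_cases h : P <;> simp [ind, h]

theorem ofR {X : Type*} {W : X → ℝ} (h0 : ∀ x, 0 ≤ W x) (hs : Summable W) (P : X → Prop) :
    ∑' x, ENNReal.ofReal (W x) * ind (P x) = ENNReal.ofReal (∑' x, W x * ind (P x)) := by
  rw [ENNReal.ofReal_tsum_of_nonneg (fun x => mul_nonneg (h0 x) (ind_u1 _).1)
    (hs.of_nonneg_of_le (fun x => mul_nonneg (h0 x) (ind_u1 _).1)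
      fun x => mul_le_of_le_one_right (h0 x) (ind_u1 _).2)]
  exact tsum_congr fun x => by by_cases h : P x <;> simp [ind, h]

/-- nonnegative weights -/
structure Wt.Pos (w : Wt ℝ B U V E) : Prop where
  b : ∀ b, 0 ≤ w.b b
  u : ∀ b u, 0 ≤ w.u b u
  v : ∀ b v, 0 ≤ w.v b v
  e : ∀ b u v e, 0 ≤ w.e b u v e

/-- **G1** for real weights -/
theorem g1r [Nonempty N] (w : Wt ℝ B U V E) (hw : w.Pos) (su : Summable w.zu) (sv : Summable w.zv)
    (s1 : Summable w.w1) (s2 : Summable w.w2) (s4 : Summable w.w4)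
    (S : B × U × V × E → Prop) (p : B × U × V × E → N) {c c' τ₁ τ₂ τ₃ : ℝ} (hc : 0 ≤ c)
    (hc' : 0 ≤ c') (t2 : 0 ≤ τ₂) (t3 : 0 ≤ τ₃)
    (h1 : ∑' z : T4 B U V E, w.w4 z *
      ind (S (c0 z.1) ∧ S (c1 z.1) ∧ S (c2 z) ∧ S (c3 z) ∧ p (c0 z.1) ≠ p (c1 z.1)) ≤ τ₁)
    (h2 : ∀ F : TC B U V E → Prop,
      ∑' z : T4 B U V E, w.w4 z * ind (F z.1) ≤ c * ∑' z, w.w2 z * ind (F z) + τ₂)
    (h3 : ∀ F : B × U × V × E → Prop,
      ∑' z, w.w2 z * ind (F (c0 z)) ≤ c' * ∑' z, w.w1 z * ind (F z) + τ₃) :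
    ∃ g : B → U → N, (∑' z, w.w1 z * ind (S z)) ^ 4 ≤ (∑' x, w.zu x) ^ 2 * ((∑' x, w.zv x) *
      (τ₁ + τ₂ + 2 * c * (c' * ∑' z, w.w1 z * ind (S z ∧ p z = g z.1 z.2.1) + τ₃))) := by
  let w' : Wt ℝ≥0∞ B U V E := ⟨fun b => .ofReal (w.b b), fun b u => .ofReal (w.u b u),
    fun b v => .ofReal (w.v b v), fun b u v e => .ofReal (w.e b u v e)⟩
  have pu : ∀ x, 0 ≤ w.zu x := fun x => mul_nonneg (hw.b _) (hw.u _ _)
  have pv : ∀ x, 0 ≤ w.zv x := fun x => mul_nonneg (hw.b _) (mul_nonneg (hw.v _ _) (hw.v _ _))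
  have pe : ∀ x, 0 ≤ w.ve x := fun x => mul_nonneg (hw.v _ _) (hw.e _ _ _ _)
  have p1 : ∀ x, 0 ≤ w.w1 x := fun x => mul_nonneg (pu _) (pe _)
  have p2 : ∀ x, 0 ≤ w.w2 x := fun x => mul_nonneg (pu _) (mul_nonneg (pe _) (pe _))
  have p4 : ∀ x, 0 ≤ w.w4 x := fun x => mul_nonneg (p2 _)
    (mul_nonneg (hw.u _ _) (mul_nonneg (hw.e _ _ _ _) (hw.e _ _ _ _)))
  have eu : ∀ x, w'.zu x = .ofReal (w.zu x) := fun x => (ENNReal.ofReal_mul (hw.b _)).symm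
  have ee : ∀ x, w'.ve x = .ofReal (w.ve x) := fun x => (ENNReal.ofReal_mul (hw.v _ _)).symm
  have ev : ∀ x, w'.zv x = .ofReal (w.zv x) := fun x => by
    rw [Wt.zv, Wt.zv, ENNReal.ofReal_mul (hw.b _), ENNReal.ofReal_mul (hw.v _ _)]
  have e1 : ∀ x, w'.w1 x = .ofReal (w.w1 x) := fun x => by
    rw [Wt.w1, Wt.w1, ENNReal.ofReal_mul (pu _), eu, ee]
  have e2 : ∀ x, w'.w2 x = .ofReal (w.w2 x) := fun x => by
    rw [Wt.w2, Wt.w2, ENNReal.ofReal_mul (pu _), ENNReal.ofReal_mul (pe _), eu, ee, ee]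
  have e4 : ∀ x, w'.w4 x = .ofReal (w.w4 x) := fun x => by
    rw [Wt.w4, Wt.w4, ENNReal.ofReal_mul (p2 _), ENNReal.ofReal_mul (hw.u _ _),
      ENNReal.ofReal_mul (hw.e _ _ _ _), e2]
  have t1 : 0 ≤ τ₁ := (tsum_nonneg fun x => mul_nonneg (p4 x) (ind_u1 _).1).trans h1
  have n1 : ∀ P : B × U × V × E → Prop, 0 ≤ ∑' x, w.w1 x * ind (P x) :=
    fun P => tsum_nonneg fun x => mul_nonneg (p1 x) (ind_u1 _).1
  have n2 : ∀ P : TC B U V E → Prop, 0 ≤ ∑' x, w.w2 x * ind (P x) :=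
    fun P => tsum_nonneg fun x => mul_nonneg (p2 x) (ind_u1 _).1
  obtain ⟨g, hg⟩ := g1 w' S p (c := .ofReal c) (c' := .ofReal c') (τ₁ := .ofReal τ₁)
    (τ₂ := .ofReal τ₂) (τ₃ := .ofReal τ₃)
    (by simp only [e4]; rw [ofR p4 s4]; exact ENNReal.ofReal_le_ofReal h1)
    (fun F => by
      simp only [e4, e2]
      rw [ofR p4 s4, ofR p2 s2, ← ENNReal.ofReal_mul hc, ← ENNReal.ofReal_add (mul_nonneg hc (n2 _)) t2]
      exact ENNReal.ofReal_le_ofReal (h2 F))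
    (fun F => by
      simp only [e2, e1]
      rw [ofR p2 s2, ofR p1 s1, ← ENNReal.ofReal_mul hc', ← ENNReal.ofReal_add (mul_nonneg hc' (n1 _)) t3]
      exact ENNReal.ofReal_le_ofReal (h3 F))
  refine ⟨g, ?_⟩
  have zu : 0 ≤ ∑' x, w.zu x := tsum_nonneg pu
  have zv : 0 ≤ ∑' x, w.zv x := tsum_nonneg pv
  have m := n1 fun z => S z ∧ p z = g z.1 z.2.1
  simp only [eu, ev, e1] at hg
  rw [ofR p1 s1, ofR p1 s1, ← ENNReal.ofReal_tsum_of_nonneg pu su,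
    ← ENNReal.ofReal_tsum_of_nonneg pv sv, ← ENNReal.ofReal_pow (n1 _), ← ENNReal.ofReal_pow zu,
    ← ENNReal.ofReal_mul hc', ← ENNReal.ofReal_add (mul_nonneg hc' m) t3, ← ENNReal.ofReal_add t1 t2,
    ← ENNReal.ofReal_ofNat 2, ← ENNReal.ofReal_mul (by norm_num),
    ← ENNReal.ofReal_mul (by positivity), ← ENNReal.ofReal_add (by positivity) (by positivity),
    ← ENNReal.ofReal_mul zv, ← ENNReal.ofReal_mul (by positivity)] at hg
  exact (ENNReal.ofReal_le_ofReal_iff (by positivity)).1 hg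

end real

end Crest.Agent.N49.Gg
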